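import Vale.Agent.P203.H36.Equiv

/-! P203. The K(π,1) conjecture for all Artin groups, with the space `Y` and the orbits of `W`
described by the words in the simple reflections. -/

namespace Vale.Agent.Results.P203.HomotopyVanishing

open Vale.Agent.P203.H36

/-- **The K(π,1) conjecture.**  For every Coxeter matrix `M` on a finite set `S`, the orbit space
`Y/W` has trivial homotopy groups `π_n`, `n ≥ 2`, at all base points. -/
theorem result {S : Type} [Finite S] (M : CoxeterMatrix S) (n : ℕ) (hn : 2 ≤ n)
    (x : Quot (SameOrbit M)) : Subsingleton (HomotopyGroup (Fin n) (Quot (SameOrbit M)) x) :=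
  main M n hn x

end Vale.Agent.Results.P203.HomotopyVanishing
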