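import Vale.Agent.P203.Top.KPiOne
import Vale.Agent.P203.H895.Facts

/-! P203. The K(π,1) conjecture for all Artin groups: for every Coxeter matrix on a finite set,
all higher homotopy groups of the orbit space `Y/W` vanish. -/

namespace Vale.Agent.Results.P203.KPiOne

open Vale.Agent.P203

/-- **The K(π,1) conjecture.**  For every Coxeter matrix `M` on a finite set `S`, the orbit space
`Y/W` is aspherical: `π_n(Y/W, x)` is trivial for all `n ≥ 2` and all base points `x`. -/
theorem result {S : Type} [Finite S] (M : CoxeterMatrix S) (n : ℕ) (hn : 2 ≤ n)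
    (x : OrbitSpace M) : Subsingleton (HomotopyGroup (Fin n) (OrbitSpace M) x) :=
  KPi.main M (Dg.H895.twistFacts _ _) hn x

end Vale.Agent.Results.P203.KPiOne
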