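import Vale.Agent.P203.Asm.GoodFacts
import Vale.Agent.P203.Hom.Bridge
import Vale.Agent.P203.Hom.PosetInst
import Vale.Agent.P203.H895.Facts

namespace Vale.Agent.Results.P203.UniversalCoverExact

open Vale.Agent.P203

theorem result {S : Type} [Fintype S] [LinearOrder S] (M : CoxeterMatrix S) (n : ℕ) :
    Function.Exact (bdry M (artinGen M) (n + 1)) (bdry M (artinGen M) n) :=
  Hom.exact_of_good
    (Asm.good_of_facts M (Dg.H895.twistFacts (ZMod 2) _) (Hom.posetTheory_hom M)) n

end Vale.Agent.Results.P203.UniversalCoverExact
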